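import Mathlib
import Vale.Agent.P083.Main
import Vale.Agent.P083.CuntzExists

open Filter Topology

/-- Kirchberg's embedding problem has a negative answer: a separable unital C*-algebra with no
unital embedding into the norm ultrapower of any C*-algebra generated by a Cuntz pair. -/
theorem Vale.Agent.Results.P083.NoEmbedding.result :
    (∃ (B : Type) (_ : CStarAlgebra B) (_ : Nontrivial B) (s₁ s₂ : B),
        star s₁ * s₁ = 1 ∧ star s₂ * s₂ = 1 ∧ s₁ * star s₁ + s₂ * star s₂ = 1 ∧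
        (StarAlgebra.adjoin ℂ ({s₁, s₂} : Set B)).topologicalClosure = ⊤) ∧
    ∃ (A : Type) (_ : CStarAlgebra A),
      TopologicalSpace.SeparableSpace A ∧ Nontrivial A ∧
      ∀ (B : Type) [CStarAlgebra B] [Nontrivial B] (s₁ s₂ : B),
        star s₁ * s₁ = 1 → star s₂ * s₂ = 1 → s₁ * star s₁ + s₂ * star s₂ = 1 →
        (StarAlgebra.adjoin ℂ ({s₁, s₂} : Set B)).topologicalClosure = ⊤ →
        ∀ ω : Ultrafilter ℕ, (ω : Filter ℕ) ≤ Filter.cofinite →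
        ¬ ∃ Φ : A → ℕ → B,
          (∀ a, ∃ C : ℝ, ∀ n, ‖Φ a n‖ ≤ C) ∧
          (∀ a b, Tendsto (fun n => ‖Φ (a + b) n - (Φ a n + Φ b n)‖) ω (𝓝 0)) ∧
          (∀ (c : ℂ) a, Tendsto (fun n => ‖Φ (c • a) n - c • Φ a n‖) ω (𝓝 0)) ∧
          (∀ a b, Tendsto (fun n => ‖Φ (a * b) n - Φ a n * Φ b n‖) ω (𝓝 0)) ∧
          (∀ a, Tendsto (fun n => ‖Φ (star a) n - star (Φ a n)‖) ω (𝓝 0)) ∧
          Tendsto (fun n => ‖Φ 1 n - 1‖) ω (𝓝 0) ∧
          (∀ a, Tendsto (fun n => ‖Φ a n‖) ω (𝓝 0) → a = 0) := by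
  refine ⟨Vale.Agent.P083.exists_cuntz, ?_⟩
  obtain ⟨A, iA, iSep, iNt, T, hT⟩ := Vale.Agent.P083.exists_model
  refine ⟨A, iA, iSep, iNt, fun B _ _ s₁ s₂ h1 h2 hsum hgen ω _ => ?_⟩
  rintro ⟨Φ, hb, hadd, -, hmul, hstar, hone, -⟩
  obtain ⟨δ, hδ, hno⟩ := Vale.Agent.P083.no_near B ![s₁, s₂]
    (fun i => by fin_cases i <;> simpa using ‹_›)
    (by simpa [Fin.sum_univ_two] using hsum)
    (by rw [Matrix.range_cons_cons_empty]; exact hgen)
  obtain ⟨T', hT'⟩ :=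
    Vale.Agent.P083.exists_near (ω : Filter ℕ) Φ hb hadd hmul hstar hone T hT δ hδ
  exact hno T' hT'
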